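import Vale.Agent.P011UK.S2
import Vale.Agent.P011UA.A0
import Vale.Agent.P011U.IF
import Vale.Agent.P011.H268.LangC2

/-!
OPI: over function fields, forms with a chamber opposite to its conjugate are isotropic.
-/

set_option autoImplicit false
set_option linter.all false

namespace Vale.Agent.P011UK

open Matrix Vale.Agent.P011L Vale.Agent.P183CH Vale.Agent.P011U

section
variable {R : RS} {K G : Type} [Field K] [Group G] {Γ : RG R K G} (hΓ : Γ.Ok) (hR : R.Ok)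
  {i j : Fin R.r}
include hΓ hR

theorem s2 (i : Fin R.r) : S2 (Γ.x (R.α i)) (Γ.x (-R.α i)) (Γ.h i) (Γ.n i) := by
  have h1 := hR.simple i
  have h2 := hR.neg_mem h1
  obtain ⟨ε, hε⟩ := hΓ.nx i _ h1
  rw [← hR.sE_apply, hR.sE_α, neg_neg] at hε
  have e : ((ε : ℤ) : K) = -1 := by
    rcases Int.units_eq_one_or ε with rfl | rfl
    · simp only [Units.val_one, Int.cast_one, one_mul] at hε
      have a : Γ.n i = Γ.x (-R.α i) 1 * (Γ.x (R.α i) (-1) * Γ.x (-R.α i) 1) := by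
        rw [← (hε 1).1, ← (hε (-1)).2]
        calc Γ.n i = Γ.n i * Γ.n i * (Γ.n i)⁻¹ := by group
          _ = _ := by
            nth_rewrite 2 [RG.n]
            group
      have b : Γ.x (R.α i) (-1) * Γ.x (-R.α i) 1 = (Γ.n i)⁻¹ * Γ.x (R.α i) 1 := by
        rw [hΓ.x_neg h1, RG.n, hΓ.x_neg h2]
        group
      have c : Γ.x (R.α i) (1 + 1) * (Γ.h i (-1))⁻¹ = 1 := by
        rw [← hΓ.n_sq hR, mul_inv_eq_one, hΓ.add _ h1]
        nth_rewrite 2 [a]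
        rw [b, ← (hε 1).2]
        group
      have d := (hΓ.tri _ (RG.x_mem h1 (RS.α_nonneg i) _) _ (inv_mem (RG.h_mem i (-1)))
        (c ▸ one_mem _)).1
      simpa using eq_neg_of_add_eq_zero_left (hΓ.x_eq_one hR h1 d)
    · simp
  simp only [e, neg_one_mul] at hε
  refine ⟨hΓ.add _ h1, hΓ.sl i, fun t u => ?_, fun t => ?_, fun u => (hε u).1, fun u => (hε u).2,
    hΓ.x_inj hR h2⟩
  · rw [hΓ.hx i t _ h1, RS.pr_α, hR.diag]
    norm_cast
  · rw [hΓ.nh, hR.diag, ← map_mul]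
    congr 1
    group

theorem comm_conj {n : G} {w : R.Aut} {γ δ : R.Q} (h : Γ.Rep n w) (hγ : γ ∈ R.Φ) (hδ : δ ∈ R.Φ)
    (H : ∀ t u, Commute (Γ.x γ t) (Γ.x δ u)) (t u : K) :
    Commute (Γ.x (w γ) t) (Γ.x (w δ) u) := by
  obtain ⟨c, hc⟩ := hΓ.rep_conj hR h hγ
  obtain ⟨d, hd⟩ := hΓ.rep_conj hR h hδ
  rw [← c.mul_inv_cancel_left t, ← d.mul_inv_cancel_left u, ← (hc _).1, ← (hd _).1]
  exact (H _ _).map (MulAut.conj n)

theorem comm_n (ne : i ≠ j) (h : R.A i j = 0) : Commute (Γ.n i) (Γ.n j) := by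
  have h' := hR.A_zero_comm.1 h
  have e1 : R.sE i (R.α j) = R.α j := by simp [hR.sE_eq, RS.pr_α, h']
  have e2 : R.sE j (R.α i) = R.α i := by simp [hR.sE_eq, RS.pr_α, h]
  have a : ∀ t u, Commute (Γ.x (R.α i) t) (Γ.x (R.α j) u) := fun t u => by
    have c := hΓ.comm _ (hR.simple i) _ (hR.simple j) (RS.α_nonneg i) (RS.α_nonneg j) t u
    have d := RG.X_le (K := ⊥) (fun γ q m _ => by
      obtain ⟨a, b, a0, b0, e⟩ := q
      have s := (hR.sign _ (hR.map_mem (RS.sE_mem_W i) m)).2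
      rw [e, map_add, map_nsmul, map_nsmul, hR.sE_α, e1] at s
      rcases s with s | s
      · exact absurd (s i) (by simp [RS.α_self, RS.α_ne ne, a0.ne'])
      · exact absurd (s j) (by simp [RS.α_self, RS.α_ne ne.symm, b0.ne'])) c
    exact commutatorElement_eq_one_iff_commute.1 (Subgroup.mem_bot.1 d)
  have b := comm_conj hΓ hR (RG.rep_n i) (hR.simple i) (hR.simple j) a
  have c := comm_conj hΓ hR (RG.rep_n j) (hR.simple i) (hR.simple j) a
  rw [hR.sE_α, e1] at b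
  have d := comm_conj hΓ hR (RG.rep_n j) (hR.neg_mem (hR.simple i)) (hR.simple j) b
  rw [hR.sE_α, e2] at c
  rw [hR.sE_α, map_neg, e2] at d
  exact ((((a _ _).mul_left (b _ _)).mul_left (a _ _)).mul_right
    (((c _ _).mul_left (d _ _)).mul_left (c _ _))).mul_right
    (((a _ _).mul_left (b _ _)).mul_left (a _ _))

end

/-- Two roots which are fixed by all automorphisms of the diagram. -/
def Good (R : RS) : Prop := ∃ (t i : Fin R.r) (l : List (Fin R.r)),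
  l.Pairwise (fun a b => a ≠ b ∧ R.A a b = 0) ∧
    (∀ π, Dg R π → π t = t ∧ π i = i ∧ ∀ j ∈ l, π j ∈ l) ∧ R.pr (R.wd l (R.α i)) t = -1

theorem sp_of {R : RS} {k K G : Type} [Field k] [Field K] [Algebra k K] [Group G] {Γ : RG R K G}
    (hΓ : Γ.Ok) (hR : R.Ok) (hG : Good R) {A : (K ≃ₐ[k] K) →* MulAut G} {ε : (K ≃ₐ[k] K) →* ℤˣ}
    {π : (K ≃ₐ[k] K) → Equiv.Perm (Fin R.r)} {c : (K ≃ₐ[k] K) → Fin R.r → Kˣ}
    (hε : ∃ τ, ε τ = -1) (hc : ∀ σ, ε σ = 1 → c σ = 1) (hπ : ∀ σ, Dg R (π σ))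
    (h : ∀ σ i u, A σ (Γ.x (R.α i) u) = Γ.x ((ε σ : ℤ) • R.α (π σ i)) (c σ i * σ u) ∧
      A σ (Γ.x (-R.α i) u) = Γ.x (-((ε σ : ℤ) • R.α (π σ i))) ((c σ i)⁻¹ * σ u))
    (H : H3 ε) {u v : K} (g : Cj ε u v) (ne : u ≠ v) : ∃ i, Sp A (Γ.h i) := by
  obtain ⟨t, i, l, hl, hf, hp⟩ := hG
  have h1 : ∀ σ j u, ε σ = 1 → A σ (Γ.x (R.α j) u) = Γ.x (R.α (π σ j)) (σ u) ∧
      A σ (Γ.x (-R.α j) u) = Γ.x (-R.α (π σ j)) (σ u) := fun σ j u e => by
    simpa [e, hc σ e] using h σ j u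
  have h2 : ∀ σ j u, ε σ = -1 → A σ (Γ.x (R.α j) u) = Γ.x (-R.α (π σ j)) (c σ j * σ u) ∧
      A σ (Γ.x (-R.α j) u) = Γ.x (R.α (π σ j)) ((c σ j)⁻¹ * σ u) := fun σ j u e => by
    simpa [e] using h σ j u
  have nd : ∀ σ, Γ.nd (l.map (π σ)) = Γ.nd l := fun σ => by
    have n : l.Nodup := hl.imp fun h => h.1
    refine (List.Perm.prod_eq' ((((List.subperm_of_subset (n.map (π σ).injective) fun j m => by
      obtain ⟨j, m', rfl⟩ := List.mem_map.1 m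
      exact (hf _ (hπ σ)).2.2 j m').perm_of_length_le (by simp)).symm).map _) ?_).symm
    exact List.pairwise_map.2 (hl.imp fun h => comm_n hΓ hR h.1 h.2)
  have n1 : ∀ σ, ε σ = 1 → A σ (Γ.nd l) = Γ.nd l := fun σ e => by
    nth_rewrite 2 [← nd σ]
    rw [RG.nd, RG.nd, map_list_prod, List.map_map, List.map_map]
    exact congrArg _ (List.map_congr_left fun j _ => by simp [RG.n, fun j u => h1 σ j u e])
  have n2 : ∀ σ, ε σ = -1 → ∀ l, Γ.Rep (A σ (Γ.nd l)) (R.wd (l.map (π σ))) := fun σ e l => by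
    induction l with
    | nil => simpa [RG.nd, RS.wd_nil] using RG.rep_T (one_mem Γ.T)
    | cons j l ih =>
      have := (s2 hΓ hR (π σ j)).w_eq (c σ j)
      rw [RG.nd_cons, map_mul, List.map_cons, RS.wd_cons]
      refine RG.Rep.mul ?_ ih
      simp only [RG.n, map_mul, fun j u => h2 σ j u e, map_one, map_neg, mul_one, mul_neg]
      rw [this]
      exact (RG.rep_n _).T_mul (RG.h_mem _ _)
  obtain ⟨e, he⟩ := hΓ.rep_conj hR (RG.rep_nd l) (hR.simple i)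
  have m := hR.map_mem (RS.wd_mem_W l) (hR.simple i)
  have s' := (s2 hΓ hR i).map (MulAut.conj (Γ.nd l))
  obtain ⟨a, ha⟩ := st_of (A := A) (s2 hΓ hR t) hε
    (fun σ u e => by simpa [(hf _ (hπ σ)).1] using h1 σ t u e) fun σ e =>
      ⟨c σ t, (c σ t).ne_zero, fun u => by simpa [(hf _ (hπ σ)).1] using h2 σ t u e⟩
  obtain ⟨a', ha'⟩ := st_of (A := A) s' hε
    (fun σ u e => by simp [(hf _ (hπ σ)).2.1, n1 σ e, h1 σ i u e]) fun σ r => by
      have q := (hΓ.rep_div hR (n2 σ r l) (RG.rep_nd _)).1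
      rw [nd] at q
      obtain ⟨s, q, f⟩ : ∃ s ∈ Γ.T, A σ (Γ.nd l) = s * Γ.nd l := ⟨_, q, by group⟩
      obtain ⟨χ, hχ⟩ : ∃ χ : Kˣ, ∀ a, s * Γ.x (R.wd l (R.α i)) a * s⁻¹ = Γ.x _ (χ * a) ∧
          s * Γ.x (-R.wd l (R.α i)) a * s⁻¹ = Γ.x _ ((χ⁻¹ : Kˣ) * a) :=
        ⟨_, fun a => ⟨hΓ.tx q m a, by rw [hΓ.tx q (hR.neg_mem m), hΓ.chi_neg]⟩⟩
      refine ⟨(χ⁻¹ * c σ i : Kˣ), Units.ne_zero _, fun u => ⟨?_, ?_⟩⟩
      · simp only [MulAut.conj_apply, map_mul, map_inv, f, h2 σ i u r, (hf _ (hπ σ)).2.1]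
        rw [(he _).2, Units.val_mul, mul_assoc (_ : K), mul_left_comm, ← (hχ _).2, ← (he _).2]
        group
      · simp only [MulAut.conj_apply, map_mul, map_inv, f, h2 σ i u r, (hf _ (hπ σ)).2.1]
        rw [(he _).1, ← Units.val_inv_eq_inv_val, mul_inv, inv_inv, Units.val_mul,
          mul_assoc (_ : K), mul_left_comm, ← (hχ _).1, ← (he _).1]
        group
  rcases core H hε g ne ha (s2 hΓ hR t) ha' s' (fun d z => by
      rw [MulAut.conj_apply, MulAut.conj_apply, (he _).1, (he _).1, hΓ.hx t d _ m, hp,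
        zpow_neg_one, mul_left_comm]) (fun d z => by
      rw [MulAut.conj_apply, MulAut.conj_apply, (he _).2, (he _).2, hΓ.hx t d _ (hR.neg_mem m),
        RS.pr_neg, hp, neg_neg, zpow_one, mul_left_comm]) with q | ⟨w, q⟩
  · exact ⟨t, q⟩
  · exact ⟨i, w * Γ.nd l, fun σ t => by simpa [mul_assoc] using q σ t⟩

/-- There is a unique multiple edge. -/
def ME {ι : Type} (C : Matrix ι ι ℤ) : Prop :=
  ∃ t i, C i t = -1 ∧ C t i < -1 ∧ ∀ p : ι × ι, C p.1 p.2 < -1 → p.1 = t ∧ p.2 = i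

/-- There is a unique branch node. -/
def TV {ι : Type} (C : Matrix ι ι ℤ) : Prop :=
  ∃ t a b c, (a ≠ b ∧ a ≠ c ∧ b ≠ c) ∧ (C a b = 0 ∧ C a c = 0 ∧ C b c = 0) ∧
    (C t a = -1 ∧ C t b = -1 ∧ C t c = -1) ∧ (C a t = -1 ∧ C b t = -1 ∧ C c t = -1) ∧
    (∀ j, C t j = -1 → j = a ∨ j = b ∨ j = c) ∧
    ∃ f g : ι → ι, ∀ p : ι × ι, C p.1 p.2 = -1 → p.1 = t ∨ p.2 = f p.1 ∨ p.2 = g p.1

section
variable {R : RS} {n : ℕ} {C : Matrix (Fin n) (Fin n) ℤ} {e : Fin R.r ≃ Fin n}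

theorem ME.good (h : ME C) (he : Ty R C e) : Good R := by
  obtain ⟨t, i, h1, h2, h3⟩ := h
  obtain ⟨t, rfl⟩ := e.surjective t
  obtain ⟨i, rfl⟩ := e.surjective i
  refine ⟨t, i, [], .nil, fun π p => ?_, (RS.pr_α _ _ _).trans ((he i t).trans h1)⟩
  have := h3 (e (π t), e (π i)) (by rwa [← he, p, he])
  exact ⟨e.injective this.1, e.injective this.2, by simp⟩

theorem TV.good (h : TV C) (he : Ty R C e) (hR : R.Ok) : Good R := by
  obtain ⟨t, a, b, c, h1, h2, h3, h4, h5, f, g, h6⟩ := h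
  obtain ⟨t, rfl⟩ := e.surjective t
  obtain ⟨a, rfl⟩ := e.surjective a
  obtain ⟨b, rfl⟩ := e.surjective b
  obtain ⟨c, rfl⟩ := e.surjective c
  simp only [← he _ _, ne_eq, e.apply_eq_iff_eq] at h1 h2 h3 h4
  refine ⟨t, t, [a, b, c], by simp [h1, h2], fun π p => ?_, ?_⟩
  · have q : π t = t := e.injective (by_contra fun q => by
      have r : ∀ j, R.A t j = -1 → e (π j) = f (e (π t)) ∨ e (π j) = g (e (π t)) := fun j m =>
        (h6 (_, e (π j)) (by rwa [← he, p])).resolve_left q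
      have s : ∀ {i j}, ¬i = j → e (π i) ≠ e (π j) := fun m => by simpa using m
      have := s h1.1
      have := s h1.2.1
      have := s h1.2.2
      rcases r a h3.1 with x | x <;> rcases r b h3.2.1 with y | y <;>
        rcases r c h3.2.2 with z | z <;> simp_all)
    refine ⟨q, q, fun j m => ?_⟩
    have := h5 (e (π j)) (by
      rw [← he]
      nth_rewrite 1 [← q]
      rw [p]
      simp only [List.mem_cons, List.not_mem_nil, or_false] at m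
      rcases m with rfl | rfl | rfl <;> simp [h3])
    simpa using this
  · simp [RS.wd_cons, RS.wd_nil, RS.mul_app, RS.one_app, hR.sE_eq, RS.pr_add, RS.pr_α, h3, h4,
      hR.A_zero_comm.1 h2.1, hR.A_zero_comm.1 h2.2.1, hR.A_zero_comm.1 h2.2.2, hR.diag]

end

theorem me_B {n : ℕ} (h : 2 ≤ n) : ME (CartanMatrix.B n) := by
  refine ⟨⟨n - 2, by omega⟩, ⟨n - 1, by omega⟩, ?_, ?_, fun ⟨a, b⟩ h => ?_⟩ <;>
    simp only [CartanMatrix.B, of_apply, Fin.ext_iff] at * <;> split_ifs at * <;> omega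

theorem me_C {n : ℕ} (h : 3 ≤ n) : ME (CartanMatrix.C n) := by
  refine ⟨⟨n - 1, by omega⟩, ⟨n - 2, by omega⟩, ?_, ?_, fun ⟨a, b⟩ h => ?_⟩ <;>
    simp only [CartanMatrix.C, of_apply, Fin.ext_iff] at * <;> split_ifs at * <;> omega

theorem D_eq {n : ℕ} (h : 4 ≤ n) (i j : Fin n) : CartanMatrix.D n i j = -1 ↔
    (i.1 + 1 = j ∧ j.1 + 2 < n) ∨ (j.1 + 1 = i ∧ i.1 + 2 < n) ∨
      (i.1 + 3 = n ∧ (j.1 + 2 = n ∨ j.1 + 1 = n)) ∨ (j.1 + 3 = n ∧ (i.1 + 2 = n ∨ i.1 + 1 = n)) := by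
  simp only [CartanMatrix.D, of_apply, Fin.ext_iff]
  split_ifs <;> simp only [false_iff, true_iff] <;> omega

theorem D_zero {n : ℕ} {i j : Fin n} (h : i ≠ j) (h' : CartanMatrix.D n i j ≠ -1) :
    CartanMatrix.D n i j = 0 := by
  simp only [CartanMatrix.D, of_apply, if_neg h] at h' ⊢
  split_ifs at h' ⊢ <;> simp at h' ⊢

theorem tv_D {n : ℕ} (h : 4 ≤ n) : TV (CartanMatrix.D n) := by
  refine ⟨⟨n - 3, by omega⟩, ⟨n - 4, by omega⟩, ⟨n - 2, by omega⟩, ⟨n - 1, by omega⟩, ?_,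
    ⟨D_zero ?_ ?_, D_zero ?_ ?_, D_zero ?_ ?_⟩, ?_, ?_, fun j => ?_,
    fun s => ⟨min (s - 1) (n - 3), by omega⟩, fun s => ⟨min (s + 1) (n - 1), by omega⟩,
    fun ⟨s, x⟩ => ?_⟩ <;> simp only [ne_eq, D_eq h, Fin.ext_iff] <;> omega

theorem tv_E : TV CartanMatrix.E₆ ∧ TV CartanMatrix.E₇ ∧ TV CartanMatrix.E₈ := by
  refine ⟨⟨3, 1, 2, 4, ?_, ?_, ?_, ?_, ?_, ![2, 3, 0, 0, 3, 4], ![2, 3, 3, 0, 5, 4], ?_⟩,
    ⟨3, 1, 2, 4, ?_, ?_, ?_, ?_, ?_, ![2, 3, 0, 0, 3, 4, 5], ![2, 3, 3, 0, 5, 6, 5], ?_⟩,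
    3, 1, 2, 4, ?_, ?_, ?_, ?_, ?_, ![2, 3, 0, 0, 3, 4, 5, 6], ![2, 3, 3, 0, 5, 6, 7, 6], ?_⟩ <;>
    decide +kernel

theorem me_F : ME CartanMatrix.F₄ ∧ ME CartanMatrix.G₂ := by
  refine ⟨⟨1, 2, ?_, ?_, ?_⟩, 0, 1, ?_, ?_, ?_⟩ <;> decide +kernel

theorem good (cls : CLS) {R : RS} (hR : R.Ok) (h : ¬TyA R) : Good R := by
  rcases cls R hR with q | ⟨n, e, a, q⟩ | ⟨n, e, a, q⟩ | ⟨n, e, a, q⟩ | ⟨e, q⟩ | ⟨e, q⟩ | ⟨e, q⟩ |
    ⟨e, q⟩ | ⟨e, q⟩
  exacts [absurd q h, (me_B a).good q, (me_C a).good q, (tv_D a).good q hR,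
    tv_E.1.good q hR, tv_E.2.1.good q hR, tv_E.2.2.good q hR, me_F.1.good q, me_F.2.good q]

open MvPolynomial in
theorem h3 {k K : Type} [Field k] [Field K] [Algebra k K] [IsGalois k K] (hk : Glob k)
    (hn : ¬NumberField k) {ε : (K ≃ₐ[k] K) →* ℤˣ} (hε : ∃ τ, ε τ = -1) {u v : K} (g : Cj ε u v)
    (ne : u ≠ v) : H3 ε := fun c c' a a' => by
  obtain ⟨F, _, _, _, _⟩ := hk.resolve_left hn
  have r : ∀ {c : K}, Cj ε c c → ∃ x, algebraMap k K x = c := fun a =>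
    (InfiniteGalois.mem_range_algebraMap_iff_fixed _).2 a.fix
  obtain ⟨c, rfl⟩ := r a
  obtain ⟨c', rfl⟩ := r a'
  obtain ⟨T, hT⟩ := r (add_comm v u ▸ g.add g.symm : Cj ε (u + v) (u + v))
  obtain ⟨N, hN⟩ := r (mul_comm v u ▸ g.mul g.symm : Cj ε (u * v) (u * v))
  let q : Fin 6 → Fin 6 → MvPolynomial (Fin 6) k := fun i j =>
    X i * X i + C T * (X i * X j) + C N * (X j * X j)
  have x : ∀ i j, (X i * X j : MvPolynomial (Fin 6) k).IsHomogeneous 2 := fun i j =>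
    (isHomogeneous_X k i).mul (isHomogeneous_X k j)
  have hq : ∀ i j, (q i j).IsHomogeneous 2 := fun i j =>
    ((x i i).add ((x i j).C_mul T)).add ((x j j).C_mul N)
  obtain ⟨w, w0, hw⟩ := P011.H268.exists_zero_functionField F (RatFunc F)
    (fun _ : Unit => C c' * q 4 5 - C c * q 2 3 - q 0 1) two_ne_zero
    (fun _ => (((hq _ _).C_mul _).sub ((hq _ _).C_mul _)).sub (hq _ _)) (by simp)
  have j : ∀ i j, Cj ε (algebraMap k K (w i) + algebraMap k K (w j) * u)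
      (algebraMap k K (w i) + algebraMap k K (w j) * v) := fun i j =>
    (Cj.alg _).add ((Cj.alg _).mul g)
  have z : ∀ i j, algebraMap k K (w i) + algebraMap k K (w j) * u = 0 → w i = 0 ∧ w j = 0 :=
    fun i i' e => by
      have e' : algebraMap k K (w i) + algebraMap k K (w i') * v = 0 :=
        by_contra fun f => (j i i').symm.ne hε f e
      have f : algebraMap k K (w i') = 0 := (mul_eq_zero.1 (by linear_combination e - e' :
        algebraMap k K (w i') * (u - v) = 0)).resolve_right (sub_ne_zero.2 ne)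
      exact ⟨by simpa [f] using e, by simpa using f⟩
  refine ⟨_, _, _, _, _, _, j 0 1, j 2 3, j 4 5, by_contra fun f => w0 (funext fun i => ?_), ?_⟩
  · push Not at f
    fin_cases i
    exacts [(z _ _ f.1).1, (z _ _ f.1).2, (z _ _ f.2.1).1, (z _ _ f.2.1).2, (z _ _ f.2.2).1,
      (z _ _ f.2.2).2]
  · have := congrArg (algebraMap k K) (hw ())
    simp only [q, map_sub, map_add, map_mul, eval_C, eval_X, hT, hN, map_zero] at this
    linear_combination this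

theorem opi (cls : CLS) : OPI := by
  intro k K _ _ _ _ D hk hD T hn hA ε π c ⟨hε, hc, hπ, h⟩ ha
  have hR := Chev.R_ok D
  obtain ⟨F, _, hF⟩ := T.cont
  obtain ⟨u, v, g, ne⟩ := ex_gen hε F fun σ s => (Int.units_eq_one_or (ε σ)).resolve_right fun e => by
    let i : Fin D.R.r := ⟨0, hR.pos⟩
    have a : T.a σ ((GG D K).x (D.R.α i) 1) = (GG D K).x (D.R.α i) 1 := by
      refine Subtype.ext (Units.ext ((hF σ ((IntermediateField.mem_fixingSubgroup_iff _ _).1 s)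
        _).trans ((fm_val (σ : K →+* K) _).symm.trans ?_)))
      rw [fm_x, map_one]
    rw [(h σ i 1).1, e, Units.val_neg, Units.val_one, neg_one_smul] at a
    have b := GG_ok.x_eq hR (hR.simple i) (hR.neg_mem (hR.simple _)) one_ne_zero a.symm
    exact hR.not_both (hR.simple i) (RS.α_nonneg i) (b ▸ neg_nonpos.2 (RS.α_nonneg _))
  obtain ⟨i, w, hw⟩ := sp_of GG_ok hR (good cls hR hA) hε hc hπ h (h3 hk hn hε g ne) g ne
  have y := ha w.1 (D.μ i) (fun t => w * (GG D K).h i t * w⁻¹) (fun t => by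
    have : (w * (GG D K).h i t * w⁻¹).1 * w.1 = w.1 * dgU (D.μ i) t := by simp [GG_h]
    exact congrArg Units.val this) hw
  have u0 : u ≠ 0 := fun e => g.symm.ne hε (fun e' => ne (e.trans e'.symm)) e
  have v0 := g.ne hε u0
  have z : ∀ t : Kˣ, t = 1 := fun t => by
    have : GG_ok.hT (Pi.mulSingle i t) = GG_ok (D := D).hT 1 := Subtype.ext (Units.ext (by
      rw [GG_ok.hT_single, map_one, GG_h, y]
      simp [dgU]))
    simpa using congrFun (hD.hT_inj this) i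
  exact ne (congrArg Units.val ((z (.mk0 u u0)).trans (z (.mk0 v v0)).symm))

end Vale.Agent.P011UK
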