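import Vale.Agent.P011UK.Mat
import Vale.Agent.P011UP.Lev
import Vale.Agent.P011UJ.Eta

/-!
The end of the cyclic steps.
-/

set_option autoImplicit false
set_option linter.all false

namespace Vale.Agent.P011UK

open Matrix Vale.Agent.P011L Vale.Agent.P011U Vale.Agent.P011UHB Vale.Agent.P011LT
  Vale.Agent.P183CH

variable {k K G : Type} [Field k] [Field K] [Algebra k K] [Group G] {l : ℕ} [NeZero l]
  {A : (K ≃ₐ[k] K) →* MulAut G} {L : IntermediateField k K} {θ σ : K ≃ₐ[k] K} {s : Fin l}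
  {f : SA K l →* G} {a : Fin l → Kˣ}

/-- the action on the units -/
def um (σ : K ≃ₐ[k] K) : Kˣ →* Kˣ := Units.map ((σ : K →+* K) : K →* K)

theorem um_iter (j : ℕ) (x : Kˣ) : (um θ)^[j] x = um (θ ^ j) x := by
  induction j with
  | zero => rfl
  | succ j h => rw [Function.iterate_succ_apply', h, pow_succ']; rfl

theorem orb {X : Fin l → K → G} {b : Fin l → Kˣ} (hX : ∀ q, Function.Injective (X q))
    (h : ∀ q u, A θ (X q u) = X (q + s) (b q * θ u)) (h' : ∀ q, A (θ ^ l) (X q 1) = X q 1)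
    (q : Fin l) : nv (um θ) s b l q = 1 := by
  have : ∀ j, A (θ ^ j) (X q 1) = X (q + j • s) (nv (um θ) s b j q).1 := fun j => by
    induction j with
    | zero => simp [nv]
    | succ j e => rw [pow_succ', map_mul, MulAut.mul_apply, e, h, succ_nsmul, add_assoc]; rfl
  have := this l
  rw [h', l_smul, add_zero] at this
  exact Units.ext (hX q this).symm

theorem rat [IsGalois k K] [IsGalois k L] {X Y : K → G} {b : Kˣ} (hY : Function.Injective Y)
    (h : ∀ u, A θ (X u) = Y (b * θ u))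
    (hX : ∀ σ, Fx (L : Set K) σ → ∀ u, A σ (X u) = X (σ u))
    (hY' : ∀ σ, Fx (L : Set K) σ → ∀ u, A σ (Y u) = Y (σ u)) (hσ : Fx (L : Set K) σ) :
    um σ b = b := by
  have e : A σ (A θ (X 1)) = A θ (A (θ⁻¹ * σ * θ) (X 1)) := by
    simp only [← MulAut.mul_apply, ← map_mul, mul_assoc, mul_inv_cancel_left]
  rw [hX _ (fx_conj hσ), map_one, h, map_one, mul_one, hY' σ hσ] at e
  exact Units.ext (hY e)

variable (A L θ s f a) in
/-- `θ` acts on the image of `f` through the monomial matrix `a`. -/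
structure Dt : Prop where
  inj : ∀ i j, i ≠ j → Function.Injective fun u => f (tv i j u)
  fix : ∀ σ, Fx (L : Set K) σ → ∀ i j, i ≠ j → ∀ u, A σ (f (tv i j u)) = f (tv i j (σ u))
  th : ∀ i j, i ≠ j → ∀ u, A θ (f (tv i j u)) = f (tv (i + s) (j + s) (a i / a j * θ u))
  mem : ∀ σ : K ≃ₐ[k] K, Fx (L : Set K) σ → ∀ i, um σ (a i) = a i

theorem dt_of [IsGalois k K] [IsGalois k L]
    (inj : ∀ i j, i ≠ j → Function.Injective fun u => f (tv i j u))
    (fix : ∀ σ, Fx (L : Set K) σ → ∀ i j, i ≠ j → ∀ u, A σ (f (tv i j u)) = f (tv i j (σ u)))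
    (h0 : a 0 = 1) (h : ∀ i, i ≠ 0 → ∀ u, A θ (f (tv i 0 u)) = f (tv (i + s) (0 + s) (a i * θ u)) ∧
      A θ (f (tv 0 i u)) = f (tv (0 + s) (i + s) (((a i)⁻¹ : Kˣ) * θ u))) : Dt A L θ s f a := by
  have n : ∀ {i j : Fin l}, i ≠ j → i + s ≠ j + s := fun e => (add_left_injective s).ne e
  refine ⟨inj, fix, fun i j e u => ?_, fun σ hσ i => ?_⟩
  · by_cases hj : j = 0
    · subst hj
      simpa [h0] using (h i e u).1
    by_cases hi : i = 0
    · subst hi
      simpa [h0] using (h j hj u).2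
    have c := eq_mul_inv_of_mul_eq (tv_comm hi (Ne.symm hj) e u 1).symm
    have d := eq_mul_inv_of_mul_eq (tv_comm (n hi) (n (Ne.symm hj)) (n e) (a i * θ u)
      (((a j)⁻¹ : Kˣ) * θ 1)).symm
    rw [mul_one] at c
    rw [c, show (a i : K) / a j * θ u = a i * θ u * (((a j)⁻¹ : Kˣ) * θ 1) by
      simp [div_eq_mul_inv, mul_right_comm], d]
    simp only [map_mul, map_inv, h i hi u, h j hj 1]
  · by_cases hi : i = 0
    · rw [hi, h0, map_one]
    · exact rat (inj _ _ (n hi)) (fun u => (h i hi u).1) (fun σ e => fix σ e _ _ hi)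
        (fun σ e => fix σ e _ _ (n hi)) hσ

theorem Dt.scale (h : Dt A L θ s f a) {z : Kˣ}
    (hz : ∀ σ : K ≃ₐ[k] K, Fx (L : Set K) σ → um σ z = z) :
    Dt A L θ s f fun i => a i * z :=
  ⟨h.inj, h.fix, fun i j e u => by
    rw [h.th i j e, Units.val_mul, Units.val_mul, mul_div_mul_right _ _ z.ne_zero],
    fun σ e i => by rw [map_mul, h.mem σ e, hz σ e]⟩

theorem Dt.fix' (h : Dt A L θ s f a) (hl : 2 ≤ l) (e : Fx (L : Set K) σ) {g g' : SA K l}
    (hg : g'.1 = gm (σ : K →+* K) g.1) : A σ (f g) = f g' := by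
  have o : mo (1 : Equiv.Perm (Fin l)) (fun _ => (1 : Kˣ)) = 1 := Units.ext (mv_one.trans (by simp))
  refine (sa_ext (φ := (A σ).toMonoidHom.comp f) (φ' := f.comp (cs (mo 1 fun _ => 1) σ)) hl
    (fun i j n u => ?_) g).trans (congrArg f (Subtype.ext (by rw [cs_val, o, hg]; simp)))
  simpa [cs_tv n] using h.fix σ e i j n u

theorem Dt.th' (h : Dt A L θ s f a) (hl : 2 ≤ l) {g g' : SA K l}
    (hg : g'.1 * mo (Equiv.addRight s) a = mo (Equiv.addRight s) a * gm (θ : K →+* K) g.1) :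
    A θ (f g) = f g' := by
  refine (sa_ext (φ := (A θ).toMonoidHom.comp f) (φ' := f.comp (cs (mo (Equiv.addRight s) a) θ)) hl
    (fun i j n u => ?_) g).trans (congrArg f (Subtype.ext (by rw [cs_val, ← hg]; simp)))
  simpa [cs_tv n] using h.th i j n u

variable [IsSepClosure k K] (hl : l.Prime) (hL : Module.finrank k L = l) (hG : IsGalois k L)
  (hθ : ¬Fx (L : Set K) θ) (h : Dt A L θ s f a)
include hl hL hG hθ h

theorem Dt.nu : ∃ ν : Kˣ, (∀ q, nv (um θ) s a l q = ν) ∧ ∀ σ : K ≃ₐ[k] K, um σ ν = ν := by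
  have h1 : ∀ q d, nv (um θ) s a l (q + d) = nv (um θ) s a l q := fun q d => by
    by_cases e : d = 0
    · rw [e, add_zero]
    have n : ∀ i, i ≠ i + d := fun i => by simpa using e
    have := orb (A := A) (θ := θ) (s := s) (X := fun i u => f (tv i (i + d) u))
      (b := fun i => a i * (a (i + d))⁻¹) (fun i => h.inj _ _ (n i))
      (fun i u => by simpa [add_right_comm i d, div_eq_mul_inv] using h.th _ _ (n i) u)
      (fun i => by simpa using h.fix _ (fx_pow hL) _ _ (n i) 1) q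
    rw [nv_mul, nv_inv, nv_add, mul_inv_eq_one] at this
    exact this.symm
  refine ⟨_, fun q => by simpa using h1 0 q, fun σ => Units.ext (gen_top hl hL hθ
    (MulAction.stabilizer _ (nv (um θ) s a l 0).1) (fun σ e => ?_) ?_ σ)⟩
  · have : ∀ j (σ : K ≃ₐ[k] K), Fx (L : Set K) σ →
        um σ (nv (um θ) s a j 0) = nv (um θ) s a j 0 := fun j => by
      induction j with
      | zero => exact fun σ _ => map_one _
      | succ j ih =>
        intro σ e
        rw [nv, map_mul, h.mem σ e]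
        nth_rewrite 2 [← ih _ (fx_conj (θ := θ) e)]
        exact congrArg _ (Units.ext (θ.apply_symm_apply _).symm)
    exact congrArg Units.val (this l σ e)
  · have := nv_succ (θ := um θ) (s := s) (a := a) l 0
    rw [nv, l_smul, add_zero, h1, um_iter, h.mem _ (fx_pow hL), mul_comm] at this
    exact congrArg Units.val (mul_right_cancel this)

omit hl hL hG hθ in
theorem Dt.ent (p q : Fin l) : (mo (Equiv.addRight s) a).1 p q ∈ L := by
  show ite _ _ _ ∈ L
  split_ifs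
  exacts [mem_of_fx fun σ e => congrArg Units.val (h.mem σ e q), zero_mem _]

theorem Dt.iso (h9 : H9) (hν : ∀ q, nv (um θ) s a l q = 1) {i j : Fin l} (n : i ≠ j) :
    ∃ w : G, ∀ σ t, A σ (w * f ⟨_, dg_mem n t⟩ * w⁻¹) = w * f ⟨_, dg_mem n (um σ t)⟩ * w⁻¹ := by
  obtain ⟨m, mL, hm⟩ := h9 k K l L θ l _ hl hL hG hθ h.ent (by
    refine (nm_mo _ s l).trans ?_
    rw [l_smul, Equiv.addRight_zero]
    exact mv_one.trans (by simp [show ∀ q, nv (Units.map _) s a l q = 1 from hν]))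
  obtain ⟨w, hw⟩ := exists_sa m i (t := GeneralLinearGroup.det m) rfl
  have v : ∀ t, (w * ⟨_, dg_mem n t⟩ * w⁻¹ : SA K l).1 = m * dg i j t * m⁻¹ := fun t => by
    have : ∀ b, mo 1 b * dg i j t = dg i j t * mo 1 b := fun b => by
      simp only [dg, mo_mul]
      exact congrArg _ (funext fun _ => mul_comm _ _)
    rw [hw, mul_assoc w.1, this]
    simp [mul_assoc]
  refine ⟨f w, fun σ => ?_⟩
  simp only [← map_inv, ← map_mul]
  refine gen_top hl hL hθ
    { carrier := {σ | ∀ t, A σ (f (w * ⟨_, dg_mem n t⟩ * w⁻¹)) = f (w * ⟨_, dg_mem n (um σ t)⟩ * w⁻¹)}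
      one_mem' := fun t => by rw [map_one]; rfl
      mul_mem' := fun {σ τ} e e' t => by rw [map_mul, MulAut.mul_apply, e', e]; rfl
      inv_mem' := fun {σ} e t => (A σ).injective (by
        rw [e, ← MulAut.mul_apply, ← map_mul, mul_inv_cancel, map_one, MulAut.one_apply,
          show um σ (um σ⁻¹ t) = t from Units.ext (σ.apply_symm_apply _)]) }
    (fun σ e t => h.fix' hl.two_le e ?_) (fun t => h.th' hl.two_le ?_) σ
  · rw [v, v, map_mul, map_mul, map_inv, dg_map,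
      show gm (σ : K →+* K) m = m from Units.ext (Matrix.ext fun p q => e _ (mL p q))]
    rfl
  · have q : mo (Equiv.addRight s) a * gm (θ : K →+* K) m = m := Units.ext hm
    rw [v, v, map_mul, map_mul, map_inv, dg_map, ← mul_assoc, ← mul_assoc, q,
      eq_inv_mul_iff_mul_eq.2 q]
    simp [mul_assoc, um]

theorem Dt.mov (ari : ARI) (hk : Glob k) (hn : NoR k) (hs : 0 ≠ s) {t : Kˣ}
    (ht : ∀ σ : K ≃ₐ[k] K, um σ t = t) : ∃ y : G, (∀ σ, Fx (L : Set K) σ → A σ y = y) ∧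
      A θ y = y * f ⟨_, dg_mem hs t⟩ := by
  obtain ⟨ν, hν, -⟩ := h.nu hl hL hG hθ
  obtain ⟨x, hx⟩ := (InfiniteGalois.mem_range_algebraMap_iff_fixed (k := k) (t : K)).2
    fun σ => congrArg Units.val (ht σ)
  obtain ⟨m, mL, hm, e⟩ := ari k K l L θ l _ hl hL hG hθ h.ent hk hn rfl ⟨ν, by
    refine (nm_mo _ s l).trans ?_
    rw [l_smul, Equiv.addRight_zero]
    exact mv_one.trans (by simp [show ∀ q, nv (Units.map _) s a l q = ν from hν, smul_one_eq_diagonal])⟩
    x (fun e => t.ne_zero (by rw [← hx, e, map_zero]))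
  obtain ⟨w, hw⟩ := exists_sa m 0 (e.trans hx)
  have d : ∀ σ : K ≃ₐ[k] K, gm (σ : K →+* K) (mo 1 fun a : Fin l => if a = 0 then t else 1) =
      mo 1 fun a => if a = 0 then t else 1 := fun σ => (mo_map _).trans (congrArg _ (funext fun a => by
    split_ifs
    exacts [ht σ, map_one _]))
  refine ⟨f w, fun σ r => h.fix' hl.two_le r ?_, ?_⟩
  · have := congrArg (gm (σ : K →+* K)) hw
    rw [map_mul, d, show gm (σ : K →+* K) m = m from Units.ext (Matrix.ext fun p q => r _ (mL p q)),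
      hw] at this
    exact mul_right_cancel this
  · have q : mo (Equiv.addRight s) a * gm (θ : K →+* K) m = m * mo (Equiv.addRight s) a :=
      Units.ext hm
    rw [hw, map_mul, d, ← mul_assoc, ← eq_mul_inv_iff_mul_eq] at q
    rw [← map_mul]
    refine h.th' hl.two_le ?_
    rw [q, eq_mul_inv_iff_mul_eq, Subgroup.coe_mul, mul_assoc, mul_assoc, mul_assoc]
    congr 1
    simp only [dg, mo_mul, one_mul, mul_one]
    congr 1
    funext p
    by_cases h1 : p = 0 <;> by_cases h2 : p + s = 0 <;> simp_all [mul_comm]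

omit h

variable {D : Chev} {T : Tw k (D.grp K)} {ρ : Fin l → Fin l → D.R.Q} {f : SA K l →* D.grp K}
  {e : Fin l → Fin l → ℤˣ} (hf : Sl ρ f e) (hρ : As D.R ρ)
include hf hρ

theorem fin (h9 : H9) (hs : 0 ≠ s) (y : D.grp K) {f' : SA K l →* D.grp K}
    (hy : ∀ g, f' g = y * f g * y⁻¹) (h : Dt T.a L θ s f' a) (hν : ∀ q, nv (um θ) s a l q = 1) :
    ¬T.Ani := by
  haveI := IsSepClosure.sep_closed k (K := K)
  haveI := P011UJ.inf_of_sep K
  obtain ⟨w, hw⟩ := h.iso hl hL hG hθ h9 hν hs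
  obtain ⟨m, -, hm, hc⟩ := hf.h 0 s hs
  refine P011UP.not_ani (m := m) (hρ.mem 0 s hs) (by rw [hm _ 2 rfl]; decide) (w * y) fun σ t => ?_
  have := hw σ t
  rw [hy, hy, hc _ _ (dg_val _), hc _ _ (dg_val _)] at this
  simp only [mul_assoc, _root_.mul_inv_rev] at this ⊢
  exact this

omit hl hL hθ in
theorem sl_dt {w : D.R.Aut} {χ : D.R.Q → Kˣ} {S : Set D.R.Q} (hw : Rt D.R w ρ s)
    (hS : ∀ i j, i ≠ j → ρ i j ∈ S) (h1 : ∀ γ ∈ S, ∀ σ, Fx (L : Set K) σ → ∀ u,
      T.a σ ((GG D K).x γ u) = (GG D K).x γ (σ u)) (h2 : Nm (GG D K) S (T.a θ) θ w χ) :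
    ∃ a, Dt T.a L θ s f a ∧ a 0 = 1 ∧ ∀ i, i ≠ 0 → a i ^ 2 = χ (ρ i 0) ^ 2 := by
  have X := fun i j (n : i ≠ j) u => hf.x i j n u _ (tv_val n u)
  have n : ∀ {i j : Fin l}, i ≠ j → i + s ≠ j + s := fun e => (add_left_injective s).ne e
  have ng : ∀ i j, ρ j i = -ρ i j := fun i j => eq_neg_of_add_eq_zero_right
    ((hρ.add i j i).trans (left_eq_add.1 (hρ.add i i i).symm))
  have : ∀ i, i ≠ 0 → ∃ c : Kˣ, c ^ 2 = χ (ρ i 0) ^ 2 ∧ ∀ u,
      T.a θ (f (tv i 0 u)) = f (tv (i + s) (0 + s) (c * θ u)) ∧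
      T.a θ (f (tv 0 i u)) = f (tv (0 + s) (i + s) ((c⁻¹ : Kˣ) * θ u)) := fun i hi => by
    obtain ⟨ε, hε⟩ := h2 _ (hS i 0 hi)
    refine ⟨Units.map (Int.castRingHom K).toMonoidHom (e i 0 * ε * e (i + s) (0 + s)) * χ (ρ i 0),
      by rw [mul_pow, ← map_pow, Int.units_sq, map_one, one_mul], fun u => ?_⟩
    rw [X _ _ hi, X _ _ hi.symm, X _ _ (n hi), X _ _ (n hi).symm, ng i 0, (hε _).1, (hε _).2, hw.2,
      ng (i + s), hf.sym 0, hf.sym (0 + s)]
    rcases Int.units_eq_one_or (e i 0) with a | a <;> rcases Int.units_eq_one_or ε with b | b <;>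
      rcases Int.units_eq_one_or (e (i + s) (0 + s)) with c | c <;> simp only [a, b, c] <;> simp
  choose! c h3 h4 using this
  refine ⟨fun i => if i = 0 then 1 else c i, dt_of (fun i j n u v q => ?_) (fun σ r i j n u => ?_)
    (if_pos rfl) fun i hi => by simpa only [if_neg hi] using h4 i hi, if_pos rfl,
    fun i hi => by simpa only [if_neg hi] using h3 i hi⟩
  · simp only [X _ _ n] at q
    have := GG_ok.x_inj (Chev.R_ok D) (hρ.mem i j n) q
    rcases Int.units_eq_one_or (e i j) with a | a <;> simpa [a] using this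
  · rw [X _ _ n, X _ _ n, h1 _ (hS i j n) σ r, map_mul, map_intCast]

omit hl hL hθ hG hf hρ

theorem mov (slh : SLH) (h9 : H9) (ari : ARI) : MOV := by
  intro k K _ _ _ _ D hk hD T hn l _ L θ w χ ρ s hl hL hG hθ hρ hw S hS wS ρS h1 h2 H
  obtain ⟨f, e, hf⟩ := slh D K l ρ hρ
  obtain ⟨a, ha, a0, a2⟩ := sl_dt hG hf hρ hw ρS h1 h2
  rcases H with ⟨hχ, ⟨n, hn⟩, d, hd, hd'⟩ | ⟨ρ', s', y, hρ', hw', ρS', hy, hd⟩
  · choose ε hε using fun i => h2 _ (hd i).1
    let b : Fin l → Kˣ := fun i => Units.map (Int.castRingHom K).toMonoidHom (ε i) * χ (d i)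
    have inj := fun i => GG_ok.x_inj (k := K) (Chev.R_ok D) (hS (hd i).1)
    have hb : ∀ i u, T.a θ ((GG D K).x (d i) u) = (GG D K).x (d (i + s)) (b i * θ u) :=
      fun i u => (hd i).2 ▸ (hε i u).1
    have h3 := ha.scale fun σ r => rat (inj _) (hb 0) (h1 _ (hd _).1) (h1 _ (hd _).1) r
    obtain ⟨ν, hν, hν'⟩ := h3.nu hl hL hG hθ
    have h4 : ∀ i, a i * b 0 * (a i * b 0) = b i * b i := fun i => by
      by_cases hi : i = 0
      · rw [hi, a0, one_mul]
      have := hχ (ρ i 0) (d 0)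
      rw [hd', sub_add_cancel, ← hd'] at this
      simp only [← pow_two, mul_pow, b, ← map_pow, Int.units_sq, map_one, one_mul, a2 i hi, this]
    have h5 : ν * ν = 1 := by
      rw [← hν 0, ← nv_mul, funext h4, nv_mul,
        orb inj hb (fun i => by simpa using h1 _ (hd i).1 _ (fx_pow hL) 1), one_mul]
    refine fin hl hL hG hθ hf hρ h9 hw.1.symm 1 (by simp)
      (h3.scale (z := ν ^ (1 : ℤ)) fun σ _ => by rw [map_zpow, hν']) fun q => ?_
    rw [nv_mul, hν, nv_zpow (hν' θ), Finset.sum_const, Finset.card_range, nsmul_one, zpow_natCast,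
      ← pow_succ', hn, add_assoc, one_add_one_eq_two, ← mul_add_one, pow_mul, pow_two, h5, one_pow]
  · obtain ⟨f', e', hf'⟩ := slh D K l ρ' hρ'
    obtain ⟨a', ha', -⟩ := sl_dt hG hf' hρ' hw' ρS' h1 h2
    obtain ⟨ν, hν, hν'⟩ := ha.nu hl hL hG hθ
    obtain ⟨v, u, hu⟩ := (Nat.prime_iff_prime_int.1 hl).coprime_iff_not_dvd.2 hd
    obtain ⟨g, g1, g2⟩ := ha'.mov hl hL hG hθ ari hk hn hw'.1.symm (t := ν ^ (-u))
      fun σ => by rw [map_zpow, hν']
    obtain ⟨m, -, hm, hc⟩ := hf'.h 0 s' hw'.1.symm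
    rw [hc _ _ (dg_val _)] at g2
    refine fin hl hL hG hθ hf hρ h9 hw.1.symm g (f' := (MulAut.conj g).toMonoidHom.comp f)
      (a := fun i => a i * ν ^ (-u * y (i + s) - v)) (fun _ => rfl)
      ⟨fun i j n => (MulAut.conj g).injective.comp (ha.inj i j n), fun σ r i j n x => ?_,
        fun i j n x => ?_, fun σ r i => by rw [map_mul, map_zpow, hν', ha.mem σ r]⟩ fun q => ?_
    · simp [g1 σ r, ha.fix σ r i j n]
    · have n' := (add_left_injective s).ne n
      have := P011UP.co_x (GG_ok (D := D) (k := K)) (m := m) (hρ.mem _ _ n') (ν ^ (-u))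
      show T.a θ (g * _ * g⁻¹) = g * f _ * g⁻¹
      rw [map_mul, map_mul, map_inv, g2, ha.th i j n, hf.x _ _ n' _ _ (tv_val n' _),
        hf.x _ _ n' _ _ (tv_val n' _), _root_.mul_inv_rev, mul_assoc g, mul_assoc g, ← mul_assoc _ _ g⁻¹,
        this, hm _ _ (hy _ _), mul_assoc g, mul_left_comm, ← mul_assoc (_ : K) _ (θ x),
        ← Units.val_div_eq_div_val, ← Units.val_div_eq_div_val, ← Units.val_mul, mul_div_mul_comm,
        div_eq_mul_inv (ν ^ _), ← _root_.zpow_sub, ← _root_.zpow_mul, mul_comm (ν ^ _)]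
      congr 8
      ring
    · rw [nv_mul, hν, nv_zpow (hν' θ), sum_orb hl hw.1 fun i => -u * y (i + s) - v,
        Finset.sum_sub_distrib, ← Finset.mul_sum, show ∑ i, y (i + s) = _ from Equiv.sum_comp (Equiv.addRight s) y,
        show -u * ∑ i, y i - ∑ _ : Fin l, v = -1 by simp; linear_combination -hu]
      simp

end Vale.Agent.P011UK
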