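import Vale.Agent.P011UHB.Spec
import Vale.Agent.P011UQ.Tz

/-!
The end of the quadratic step.
-/

set_option autoImplicit false
set_option linter.all false

namespace Vale.Agent.P011UK

open Matrix Vale.Agent.P011L Vale.Agent.P011U Vale.Agent.P011UHB Vale.Agent.P183CH
  Vale.Agent.P011UP
open Vale.Agent.P011UC (pa)

section

variable {R : RS} (hR : R.Ok) {γ : R.Q}
include hR

/-- Pinned automorphisms act on the root subgroups by signs. -/
theorem pin_x {K G : Type} [Field K] [Group G] {Γ : RG R K G} (hΓ : Γ.Ok) {F F' : Type}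
    [FunLike F G G] [MonoidHomClass F G G] [FunLike F' K K] [RingHomClass F' K K] {ψ : F} {σ : F'}
    {π : Equiv.Perm (Fin R.r)} (h : Std Γ ψ σ 1 1 π) : ∀ γ ∈ R.Φ, ∃ e : ℤˣ, ∀ u,
      ψ (Γ.x γ u) = Γ.x (pm π γ) (((e : ℤ) : K) * σ u) ∧
        ψ (Γ.x (-γ) u) = Γ.x (-pm π γ) (((e : ℤ) : K) * σ u) := by
  refine rt_ind hR (fun i => ⟨1, fun u => by simpa [pm_α] using h.2 i u⟩) fun i γ hγ ⟨d, e⟩ => ?_
  obtain ⟨a, h1⟩ := hΓ.nx i γ hγ
  obtain ⟨b, h2⟩ := hΓ.nx (π i) _ (pm_mem hR h.1 γ hγ)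
  have n : ψ (Γ.n i) = Γ.n (π i) := by simpa using std_n hΓ h i
  refine ⟨b * d * a, fun u => ?_⟩
  have q : u = ((a : ℤ) : K) * (((a : ℤ) : K) * u) := by
    rcases Int.units_eq_one_or a with r | r <;> simp [r]
  nth_rewrite 1 [q]
  nth_rewrite 3 [q]
  rw [← (h1 _).1, ← (h1 _).2, pm_s h.1]
  simp only [map_mul, map_inv, n, e, h2, map_intCast, Units.val_mul, Int.cast_mul,
    mul_assoc (G := K), and_self]

/-- the subsystem of rank one -/
def rr (γ : R.Q) (i j : Fin 2) : R.Q := ((![1, 0] i : ℤ) - ![1, 0] j) • γ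

theorem as_rr (h : γ ∈ R.Φ) : As R (rr γ) := by
  have m : ∀ i j, i ≠ j → rr γ i j = γ ∨ rr γ i j = -γ := fun i j n => by
    fin_cases i <;> fin_cases j <;> simp [rr] at n ⊢
  have m' : ∀ i j, i ≠ j → rr γ i j ∈ R.Φ := fun i j n =>
    (m i j n).elim (fun e => e.symm ▸ h) fun e => e.symm ▸ hR.neg_mem h
  have b : ∀ i j, i ≠ j → R.B (rr γ i j) (rr γ i j) = R.B γ γ := fun i j n => by
    rcases m i j n with e | e <;> rw [e]
    rw [hR.B_neg, hR.B_comm, hR.B_neg, neg_neg]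
  refine ⟨m', fun i j l => by rw [rr, rr, rr, ← add_smul, sub_add_sub_cancel],
    fun i j i' j' n n' => (b i j n).trans (b i' j' n').symm, fun i j i' j' a c n n' q a0 c0 r => ?_⟩
  obtain ⟨rfl, rfl⟩ : i = i' ∧ j = j' := by omega
  have z := smul_left_injective ℤ (hR.sign _ (m' i j n)).1
  rw [← add_smul, ← natCast_zsmul] at r
  rcases hR.reduced r (m' i j n) one_ne_zero (one_smul _ _) with e | e
  · have := z (e.trans (one_smul _ _).symm)
    omega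
  · have := z (e.trans (neg_one_smul ℤ _).symm)
    omega

omit hR in
theorem rt_rr {w : R.Aut} (h : w γ = -γ) : Rt R w (rr γ) 1 := ⟨one_ne_zero, fun i j => by
  rw [rr, rr, map_smul, h, smul_neg, ← neg_smul]
  congr 1
  fin_cases i <;> fin_cases j <;> rfl⟩

theorem two_le (h : ¬TyA R) : 2 ≤ R.r := by
  by_contra q
  have e : R.r = 1 := by have := hR.pos; omega
  refine h ⟨1, finCongr e, fun i j => ?_⟩
  obtain rfl : i = j := by omega
  simp [hR.diag, CartanMatrix.A]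

end

theorem pin_fix {k K : Type} [Field k] [Field K] [Algebra k K] {D : Chev} {ψ : MulAut (D.grp K)}
    {σ : K ≃ₐ[k] K} {π : Equiv.Perm (Fin D.R.r)} (h : Std (GG D K) ψ σ 1 1 π) (hπ : π ^ 3 = 1)
    {γ : D.R.Q} (hγ : γ ∈ D.R.Φ) (e : pm π γ = γ) (u : K) :
    ψ ((GG D K).x γ u) = (GG D K).x γ (σ u) := by
  obtain ⟨d, hd⟩ := pin_x (Chev.R_ok D) GG_ok h γ hγ
  have p : ∀ i, π (π (π i)) = i := fun i => by simpa [pow_succ] using congrArg (· i) hπ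
  have h' := fun i u => h.2 i u
  simp only [Pi.one_apply, Units.val_one, inv_one, one_mul, mul_one] at h'
  have := DFunLike.congr_fun (MonoidHom.eq_of_eqOn_dense (f := (ψ ^ 3).toMonoidHom)
    (g := fm D ((σ ^ 3 : K ≃ₐ[k] K) : K →+* K)) GG_ok.gen (by
      rintro _ ⟨i, t, rfl | rfl⟩ <;> simp [pow_succ, h', p, fm_x])) ((GG D K).x γ 1)
  rw [fm_x] at this
  simp only [pow_succ, pow_zero, one_mul, MulEquiv.toMonoidHom_eq_coe, MonoidHom.coe_coe,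
    MulAut.mul_apply, hd, e, map_mul, map_one, map_intCast, mul_one] at this
  have := GG_ok.x_inj (Chev.R_ok D) hγ this
  rw [(hd u).1, e]
  rcases Int.units_eq_one_or d with r | r
  · simp [r]
  · rw [show ((d : ℤ) : K) = 1 by simpa [r] using this, one_mul]

theorem op2 (hr : HR) (mov : MOV) : OP2 := by
  intro k K _ _ _ _ D hk hD T hn L θ π hL ⟨hθ, hπ, h1, χ, h2⟩ H
  have hR := Chev.R_ok D
  haveI : Algebra.IsQuadraticExtension k L := { finrank_eq_two' := hL }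
  obtain ⟨i, β, hβ, c, fβ, fi⟩ := hr D.R hR (H.elim (fun h => two_le hR h.1) fun h => h.1)
  have h3 : π i = i ∧ ∀ σ, Fx (L : Set K) σ → ∃ π', Std (GG D K) (T.a σ) σ 1 1 π' ∧ π' ^ 3 = 1 ∧
      π' i = i := by
    rcases H with ⟨a, b⟩ | ⟨-, b, rfl⟩
    · refine ⟨fi a π hπ, fun σ r => ?_⟩
      obtain ⟨π', q⟩ := h1 σ r
      obtain ⟨g, c, π'', q', e⟩ := b σ r
      exact ⟨π', q, (P011UQ.std_uniq GG_ok hR q q' (map_one σ)).1 ▸ e, fi a π' q.1⟩
    · refine ⟨rfl, fun σ r => ?_⟩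
      obtain ⟨π', q⟩ := h1 σ r
      obtain ⟨g, c, q'⟩ := b σ r
      obtain rfl := (P011UQ.std_uniq GG_ok hR q q' (map_one σ)).1
      exact ⟨1, q, one_pow _, rfl⟩
  let S : Set D.R.Q := {γ | γ ∈ D.R.Φ ∧ pm π γ = γ ∧ ∀ σ, Fx (L : Set K) σ →
    ∃ π', Std (GG D K) (T.a σ) σ 1 1 π' ∧ π' ^ 3 = 1 ∧ pm π' γ = γ}
  have ng : ∀ γ ∈ S, -γ ∈ S := fun γ h => ⟨hR.neg_mem h.1, congrArg Neg.neg h.2.1, fun σ r =>
    (h.2.2 σ r).imp fun _ q => ⟨q.1, q.2.1, congrArg Neg.neg q.2.2⟩⟩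
  have w : ∀ γ ∈ S, (LinearEquiv.neg ℤ * pa D.R π : D.R.Aut) γ = -γ := fun γ h =>
    congrArg Neg.neg h.2.1
  have m : ∀ γ ∈ S, ∀ i j, i ≠ j → rr γ i j ∈ S := fun γ h i j n => by
    have := ng γ h
    fin_cases i <;> fin_cases j <;> simp [rr, *] at n ⊢
  have a : D.R.α i ∈ S := ⟨hR.simple i, (pm_α i).trans (congrArg _ h3.1), fun σ r =>
    (h3.2 σ r).imp fun _ q => ⟨q.1, q.2.1, (pm_α i).trans (congrArg _ q.2.2)⟩⟩
  have b : β ∈ S := ⟨hβ, fβ π hπ, fun σ r => (h3.2 σ r).imp fun _ q => ⟨q.1, q.2.1, fβ _ q.1.1⟩⟩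
  refine mov k K D hk hD T hn 2 L θ _ χ _ 1 Nat.prime_two hL inferInstance hθ (as_rr hR a.1)
    (rt_rr (w _ a)) S (fun _ h => h.1) (fun γ h => w γ h ▸ ng γ h) (m _ a) (fun γ h σ r u => ?_)
    (fun γ h => h2 γ h.1) (Or.inr ⟨_, 1, ![1, 0], as_rr hR hβ, rt_rr (w _ b), m _ b,
      fun i j => ?_, by decide⟩)
  · obtain ⟨π', q, e, e'⟩ := h.2.2 σ r
    exact pin_fix q e h.1 e' u
  · rw [show rr β 0 1 = β by simp [rr], Cp, rr, hR.B_smul, mul_left_comm, ← c, one_mul]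

end Vale.Agent.P011UK
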