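import Vale.Agent.P011UHB.Spec
import Vale.Agent.P011LA.A1
import Vale.Agent.P011LT.Basic

/-!
Monomial matrices and semilinear actions on the images of special linear groups.
-/

set_option autoImplicit false
set_option linter.all false

namespace Vale.Agent.P011UK

open Matrix Vale.Agent.P011L Vale.Agent.P011U Vale.Agent.P011UHB Vale.Agent.P011LT

section gal

variable {k K : Type} [Field k] [Field K] [Algebra k K] [IsGalois k K] {L : IntermediateField k K}
  {σ θ : K ≃ₐ[k] K} {l : ℕ}

omit [IsGalois k K] in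
theorem fx_iff : Fx (L : Set K) σ ↔ σ ∈ L.fixingSubgroup :=
  (IntermediateField.mem_fixingSubgroup_iff _ _).symm

theorem mem_of_fx {x : K} (h : ∀ σ : K ≃ₐ[k] K, Fx (L : Set K) σ → σ x = x) : x ∈ L := by
  rw [← InfiniteGalois.fixedField_fixingSubgroup L, IntermediateField.mem_fixedField_iff]
  exact fun σ e => h σ (fx_iff.2 e)

theorem gen_top (hl : l.Prime) (hL : Module.finrank k L = l) (hθ : ¬Fx (L : Set K) θ)
    (H : Subgroup (K ≃ₐ[k] K)) (h1 : ∀ σ, Fx (L : Set K) σ → σ ∈ H) (h2 : θ ∈ H) (σ : K ≃ₐ[k] K) :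
    σ ∈ H := by
  have le : L.fixingSubgroup ≤ H := fun σ e => h1 σ (fx_iff.2 e)
  have e := Subgroup.relIndex_mul_index le
  rw [← IntermediateField.finrank_eq_fixingSubgroup_index, hL] at e
  rcases (Nat.dvd_prime hl).1 (Dvd.intro _ e) with q | q
  · exact absurd (fx_iff.2 (Subgroup.relIndex_eq_one.1 q h2)) hθ
  · rw [q, mul_eq_left₀ hl.ne_zero, Subgroup.index_eq_one] at e
    exact e ▸ Subgroup.mem_top σ

theorem fx_pow [IsGalois k L] (hL : Module.finrank k L = l) : Fx (L : Set K) (θ ^ l) := by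
  rw [fx_iff, ← hL, IntermediateField.finrank_eq_fixingSubgroup_index]
  exact Subgroup.pow_index_mem _ θ

theorem fx_conj [IsGalois k L] (h : Fx (L : Set K) σ) : Fx (L : Set K) (θ⁻¹ * σ * θ) :=
  fx_iff.2 ((inferInstance : L.fixingSubgroup.Normal).conj_mem' σ (fx_iff.1 h) θ)

end gal

section nv

variable {M : Type} [CommGroup M] (θ : M →* M) {l : ℕ} [NeZero l] (s : Fin l)

/-- the norm along an orbit -/
def nv (a : Fin l → M) : ℕ → Fin l → M
  | 0, _ => 1
  | j + 1, q => a (q + j • s) * θ (nv a j q)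

variable {θ s} {a b : Fin l → M}

theorem nv_mul (j : ℕ) (q : Fin l) : nv θ s (fun i => a i * b i) j q = nv θ s a j q * nv θ s b j q := by
  induction j with
  | zero => simp [nv]
  | succ j h => simp only [nv, h, map_mul, mul_mul_mul_comm]

theorem nv_inv (j : ℕ) (q : Fin l) : nv θ s (fun i => (a i)⁻¹) j q = (nv θ s a j q)⁻¹ := by
  induction j with
  | zero => simp [nv]
  | succ j h => simp only [nv, h, map_inv, mul_inv]

theorem nv_add (d : Fin l) (j : ℕ) (q : Fin l) :
    nv θ s (fun i => a (i + d)) j q = nv θ s a j (q + d) := by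
  induction j with
  | zero => rfl
  | succ j h => simp only [nv, h, add_right_comm q d]

theorem nv_succ (j : ℕ) (q : Fin l) : nv θ s a (j + 1) q = nv θ s a j (q + s) * θ^[j] (a q) := by
  induction j with
  | zero => simp [nv]
  | succ j h =>
    rw [nv, h, nv, map_mul, Function.iterate_succ_apply', succ_nsmul', add_assoc, mul_assoc]

theorem nv_zpow {ν : M} (h : θ ν = ν) (n : Fin l → ℤ) (j : ℕ) (q : Fin l) :
    nv θ s (fun i => ν ^ n i) j q = ν ^ ∑ i ∈ Finset.range j, n (q + i • s) := by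
  induction j with
  | zero => simp [nv]
  | succ j e => rw [nv, e, map_zpow, h, Finset.sum_range_succ, _root_.zpow_add, mul_comm]

theorem l_smul (s : Fin l) : l • s = 0 := by simpa using card_nsmul_eq_zero (x := s)

theorem sum_orb (hl : l.Prime) (hs : s ≠ 0) (n : Fin l → ℤ) (q : Fin l) :
    ∑ i ∈ Finset.range l, n (q + i • s) = ∑ i, n i := by
  haveI := Fact.mk hl
  have e := addOrderOf_eq_prime (l_smul s) hs
  rw [Finset.sum_range fun i => n (q + i • s)]
  exact (Finite.injective_iff_bijective.1 fun (i j : Fin l) h => Fin.ext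
    (nsmul_injOn_Iio_addOrderOf (e.symm ▸ i.2) (e.symm ▸ j.2) (add_left_cancel h))).sum_comp n

end nv

section mat

variable {K : Type} [Field K] {l : ℕ} {π π' : Equiv.Perm (Fin l)} {a a' : Fin l → Kˣ}
  {i j : Fin l}

/-- monomial matrices -/
def mv (π : Equiv.Perm (Fin l)) (a : Fin l → Kˣ) : Matrix (Fin l) (Fin l) K :=
  of fun p q => if p = π q then (a q : K) else 0

theorem mv_mul : mv π a * mv π' a' = mv (π * π') fun q => a (π' q) * a' q := by
  ext p q
  simp [mv, mul_apply]
  rfl

theorem mv_one : mv 1 a = diagonal fun q => (a q : K) := by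
  ext p q
  show ite (p = q) _ _ = ite (p = q) _ _
  split_ifs with h
  exacts [by rw [h], rfl]

/-- monomial matrices as units -/
def mo (π : Equiv.Perm (Fin l)) (a : Fin l → Kˣ) : GL (Fin l) K :=
  ⟨mv π a, mv π⁻¹ fun q => (a (π⁻¹ q))⁻¹, by simp [mv_mul, mv_one], by simp [mv_mul, mv_one]⟩

theorem mo_mul : mo π a * mo π' a' = mo (π * π') fun q => a (π' q) * a' q := Units.ext mv_mul

theorem mo_map (θ : K →+* K) : gm θ (mo π a) = mo π fun q => Units.map (θ : K →* K) (a q) :=
  Units.ext (Matrix.ext fun p q => by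
    show θ (ite _ _ _) = ite _ _ _
    split_ifs <;> simp)

theorem nm_mo [NeZero l] (θ : K →+* K) (s : Fin l) (n : ℕ) : nm θ (mo (Equiv.addRight s) a).1 n =
    (mo (Equiv.addRight (n • s)) (nv (Units.map (θ : K →* K)) s a n)).1 := by
  induction n with
  | zero => simp [nm, mo, mv_one, nv, ← Equiv.Perm.one_def]
  | succ n h =>
    rw [nm, h]
    refine (congrArg (_ * ·) (congrArg Units.val (mo_map θ))).trans (mv_mul.trans ?_)
    congr 1
    ext q
    simp [succ_nsmul, add_assoc]

/-- the special linear group in two forms -/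
def ta : SpecialLinearGroup (Fin l) K →* SA K l :=
  SpecialLinearGroup.toGL.codRestrict _ fun x => mem_SA.2 x.2

/-- transvections -/
def tv (i j : Fin l) (u : K) : SA K l :=
  if h : i ≠ j then ta (SpecialLinearGroup.transvection h u) else 1

theorem tv_val (h : i ≠ j) (u : K) : (tv i j u).1.1 = 1 + single i j u := by
  rw [tv, dif_pos h]
  rfl

theorem tv_comm {m : Fin l} (h1 : i ≠ j) (h2 : j ≠ m) (h3 : i ≠ m) (x y : K) :
    tv i j x * tv j m y = tv i m (x * y) * (tv j m y * tv i j x) := by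
  simp only [tv, dif_pos h1, dif_pos h2, dif_pos h3, ← map_mul, P011LA.tv_comm h1 h2 h3]

theorem sa_ext {G : Type} [Group G] {φ φ' : SA K l →* G} (hl : 2 ≤ l)
    (h : ∀ i j, i ≠ j → ∀ u, φ (tv i j u) = φ' (tv i j u)) (g : SA K l) : φ g = φ' g := by
  haveI : Nontrivial (Fin l) := Fin.nontrivial_iff_two_le.2 hl
  have h1 : ∀ (i j : Fin l) (e : i ≠ j) c, φ (ta (SpecialLinearGroup.transvection e c)) =
      φ' (ta (SpecialLinearGroup.transvection e c)) := fun i j e c => by
    simpa only [tv, dif_pos e] using h i j e c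
  have h2 := SpecialLinearGroup.diagonal_transvection_induction' (fun x => φ (ta x) = φ' (ta x))
    ⟨g.1.1, mem_SA.1 g.2⟩ (fun i j h c hc => by simp only [P011LA.diag_eq, map_mul, h1]) h1
    fun a b c d => by simp only [map_mul, c, d]
  have h3 : ta ⟨g.1.1, mem_SA.1 g.2⟩ = g := Subtype.ext (Units.ext rfl)
  exact h3 ▸ h2

/-- semilinear conjugation -/
def cs (A : GL (Fin l) K) (θ : K →+* K) : SA K l →* SA K l :=
  ((MulAut.conj A).toMonoidHom.comp ((gm θ).comp (SA K l).subtype)).codRestrict _ fun g =>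
    (MonoidHom.normal_ker _).conj_mem _ (mem_SA.2 (by
      show (g.1.1.map θ).det = 1
      rw [← RingHom.mapMatrix_apply, ← RingHom.map_det, mem_SA.1 g.2, map_one])) A

theorem cs_val (A : GL (Fin l) K) (θ : K →+* K) (g : SA K l) :
    (cs A θ g).1 = A * gm θ g.1 * A⁻¹ := rfl

theorem cs_tv (h : i ≠ j) (θ : K →+* K) (u : K) :
    cs (mo π a) θ (tv i j u) = tv (π i) (π j) (a i / a j * θ u) := by
  refine Subtype.ext ((cs_val _ _ _).trans (mul_inv_eq_iff_eq_mul.2 (Units.ext ?_)))
  show mv π a * (tv i j u).1.1.map θ = (tv _ _ _).1.1 * mv π a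
  rw [tv_val h, tv_val (π.injective.ne h), Matrix.map_add _ (map_add θ),
    Matrix.map_one _ (map_zero θ) (map_one θ), Matrix.map_single, mul_add, add_mul, mul_one, one_mul]
  congr 1
  ext p q
  by_cases h1 : π i = p <;> by_cases h2 : j = q <;>
    simp [mv, mul_apply, single_apply, ite_and, h1, h2, eq_comm (a := p)]
  subst h2
  field_simp

/-- the coroots -/
def dg (i j : Fin l) (t : Kˣ) : GL (Fin l) K :=
  mo 1 fun a => if a = i then t else if a = j then t⁻¹ else 1

theorem dg_val (t : Kˣ) : (dg i j t).1 =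
    diagonal fun a => if a = i then (t : K) else if a = j then (t⁻¹ : Kˣ) else 1 :=
  mv_one.trans (congrArg diagonal (funext fun a => by split_ifs <;> rfl))

theorem dg_mem (h : i ≠ j) (t : Kˣ) : dg i j t ∈ SA K l := mem_SA.2 (by
  rw [dg_val, Units.val_inv_eq_inv_val]
  exact (SpecialLinearGroup.diag2n h t.1 t.ne_zero).2)

theorem dg_map (θ : K →+* K) (t : Kˣ) : gm θ (dg i j t) = dg i j (Units.map (θ : K →* K) t) :=
  (mo_map θ).trans (congrArg (mo 1) (funext fun a => by split_ifs <;> simp))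

theorem exists_sa (g : GL (Fin l) K) (i : Fin l) {t : Kˣ} (h : g.1.det = t) :
    ∃ m : SA K l, g = m.1 * mo 1 fun a => if a = i then t else 1 :=
  ⟨⟨g * (mo 1 fun a => if a = i then t else 1)⁻¹, by
    have : GeneralLinearGroup.det (mo 1 fun a => if a = i then t else 1) = t := Units.ext (by
      show (mv _ _).det = _
      simp [mv_one, apply_ite Units.val])
    rw [SA, MonoidHom.mem_ker, map_mul, map_inv, this, mul_inv_eq_one]
    exact Units.ext h⟩, (inv_mul_cancel_right _ _).symm⟩

end mat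

end Vale.Agent.P011UK
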