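import Mathlib.FieldTheory.Galois.Infinite
import Mathlib.Algebra.Ring.Int.Units

/-!
Rank one data in a group with a twisted Galois action.
-/

set_option autoImplicit false
set_option linter.all false

namespace Vale.Agent.P011UK

variable {k K G : Type} [Field k] [Field K] [Algebra k K] [Group G]

/-- The relations of `SL₂`. -/
structure S2 (p m : K → G) (h : Kˣ →* G) (n : G) : Prop where
  pa : ∀ a b, p (a + b) = p a * p b
  sl : ∀ t : Kˣ, p t * m (-(t⁻¹ : Kˣ)) * p t = h t * n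
  hp : ∀ (t : Kˣ) u, h t * p u * (h t)⁻¹ = p (t ^ 2 * u)
  nh : ∀ t, n * h t * n⁻¹ = h t⁻¹
  np : ∀ u, n * p u * n⁻¹ = m (-u)
  nm : ∀ u, n * m u * n⁻¹ = p (-u)
  inj : Function.Injective m

variable {p m p' m' : K → G} {h h' : Kˣ →* G} {n n' : G}

namespace S2

theorem map (s : S2 p m h n) (φ : G ≃* G) : S2 (fun u => φ (p u)) (fun u => φ (m u))
    (φ.toMonoidHom.comp h) (φ n) :=
  ⟨fun a b => by rw [s.pa, map_mul], fun t => by simpa using congrArg φ (s.sl t),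
    fun t u => by simpa using congrArg φ (s.hp t u), fun t => by simpa using congrArg φ (s.nh t),
    fun u => by simpa using congrArg φ (s.np u), fun u => by simpa using congrArg φ (s.nm u),
    φ.injective.comp s.inj⟩

variable (s : S2 p m h n)
include s

theorem ma (a b : K) : m (a + b) = m a * m b := by
  rw [← neg_neg (a + b), ← s.np, neg_add, s.pa, ← neg_neg a, ← neg_neg b, ← s.np, ← s.np]
  simp [mul_assoc]

theorem p0 : p 0 = 1 := left_eq_mul.1 ((congrArg p (add_zero 0)).symm.trans (s.pa 0 0))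

theorem m0 : m 0 = 1 := left_eq_mul.1 ((congrArg m (add_zero 0)).symm.trans (s.ma 0 0))

theorem pn (a : K) : p (-a) = (p a)⁻¹ :=
  eq_inv_of_mul_eq_one_left (by rw [← s.pa, neg_add_cancel, s.p0])

theorem mn (a : K) : m (-a) = (m a)⁻¹ :=
  eq_inv_of_mul_eq_one_left (by rw [← s.ma, neg_add_cancel, s.m0])

theorem m_eq (b : Kˣ) : m b = p (b⁻¹ : Kˣ) * (h (-b⁻¹) * n) * p (b⁻¹ : Kˣ) := by
  rw [← s.sl, Units.val_neg, s.pn, inv_neg, inv_inv, Units.val_neg, neg_neg]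
  group

theorem ph (t : Kˣ) (u : K) : p u * h t = h t * p ((t⁻¹ : Kˣ) ^ 2 * u) := by
  rw [← s.hp, map_inv]
  group

theorem nh' (t : Kˣ) : n * h t = h t⁻¹ * n := by rw [← s.nh, inv_mul_cancel_right]

/-- The Gauss decomposition. -/
theorem ga (a b : K) (d : Kˣ) (e : (d : K) = 1 + a * b) :
    p a * m b = m (b / d) * h d * p (a / d) := by
  by_cases hb : b = 0
  · obtain rfl : d = 1 := Units.ext (by simpa [hb] using e)
    simp [hb, s.m0]
  lift b to Kˣ using Ne.isUnit hb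
  have e1 : (b : K) / d = (b / d : Kˣ) := by simp
  have e2 : a + (b⁻¹ : Kˣ) = ((b / d)⁻¹ : Kˣ) := by
    simp only [Units.val_inv_eq_inv_val, Units.val_div_eq_div_val, e]
    field_simp
    ring
  have e3 : ((d⁻¹ : Kˣ) : K) ^ 2 * ((b / d)⁻¹ : Kˣ) + a / d = (b⁻¹ : Kˣ) := by
    have := d.ne_zero
    simp only [Units.val_inv_eq_inv_val, Units.val_div_eq_div_val]
    field_simp
    rw [e]
    ring
  have e4 : -b⁻¹ = -(b / d)⁻¹ * d⁻¹ := by simp [div_eq_mul_inv, mul_comm]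
  rw [e1, s.m_eq, s.m_eq, ← mul_assoc, ← mul_assoc, ← s.pa, e2, mul_assoc _ (p _) (h d), s.ph,
    e4, map_mul, ← e3, s.pa]
  simp only [mul_assoc]
  rw [← mul_assoc n (h d), s.nh', mul_assoc]

theorem h_eq (d : Kˣ) : h d = m (-((d - 1) / d)) * p 1 * m (d - 1) * p (-(1 / d)) := by
  rw [mul_assoc (m _), s.ga 1 _ d (by ring), s.mn, s.pn]
  group

theorem h_inv (c d : Kˣ) : h d⁻¹ = p ((c⁻¹ : Kˣ) * -((d - 1) / d)) * m (c * 1) *
    p ((c⁻¹ : Kˣ) * (d - 1)) * m (c * -(1 / d)) := by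
  have e := s.ga (-((c⁻¹ : Kˣ) * (d - 1))) (-(c * 1)) d (by simp; field_simp; ring)
  rw [s.pn, s.mn, ← mul_inv_rev, inv_eq_iff_eq_inv] at e
  rw [mul_assoc (p _), e, mul_neg, mul_neg, neg_div, neg_div, s.pn, s.mn, s.mn, s.pn, map_inv,
    mul_div_assoc, mul_div_assoc]
  group

theorem w_eq (c : Kˣ) : m c * p (-(c⁻¹ : Kˣ)) * m c = h (-c)⁻¹ * n := by
  have e := s.sl (-c)
  have e1 := s.np (-c)
  rw [neg_neg] at e1
  rw [inv_neg, Units.val_neg, Units.val_neg, neg_neg] at e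
  calc _ = n * (p (-c) * m (c⁻¹ : Kˣ) * p (-c)) * n⁻¹ := by
        rw [← e1, ← s.nm (c⁻¹ : Kˣ)]
        group
    _ = _ := by rw [e, ← s.nh', mul_assoc, mul_inv_cancel_right]

end S2

variable {A : (K ≃ₐ[k] K) →* MulAut G} {ε : (K ≃ₐ[k] K) →* ℤˣ} {c c' : K} {u v z y : K}

/-- The pair `u`, `v` consists of conjugate elements of the quadratic extension. -/
def Cj (ε : (K ≃ₐ[k] K) →* ℤˣ) (u v : K) : Prop :=
  ∀ σ, (ε σ = 1 → σ u = u ∧ σ v = v) ∧ (ε σ = -1 → σ u = v ∧ σ v = u)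

/-- The action on the rank one datum. -/
def St (A : (K ≃ₐ[k] K) →* MulAut G) (ε : (K ≃ₐ[k] K) →* ℤˣ) (p m : K → G) (c : K) : Prop :=
  (c ≠ 0 ∧ Cj ε c c) ∧ ∀ σ u, (ε σ = 1 → A σ (p u) = p (σ u) ∧ A σ (m u) = m (σ u)) ∧
    (ε σ = -1 → A σ (p u) = m (c * σ u) ∧ A σ (m u) = p (c⁻¹ * σ u))

theorem Cj.of (f : ∀ σ : K ≃ₐ[k] K, σ c = c) : Cj ε c c := fun σ =>
  ⟨fun _ => ⟨f σ, f σ⟩, fun _ => ⟨f σ, f σ⟩⟩

theorem Cj.fix (a : Cj ε c c) (σ : K ≃ₐ[k] K) : σ c = c :=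
  (Int.units_eq_one_or (ε σ)).elim (fun e => ((a σ).1 e).1) fun e => ((a σ).2 e).1

theorem Cj.symm (a : Cj ε u v) : Cj ε v u := fun σ =>
  ⟨fun e => ((a σ).1 e).symm, fun e => ((a σ).2 e).symm⟩

theorem Cj.two (f : K → K → K) (hf : ∀ (σ : K ≃ₐ[k] K) a b, σ (f a b) = f (σ a) (σ b))
    (a : Cj ε u v) (b : Cj ε z y) : Cj ε (f u z) (f v y) := fun σ =>
  ⟨fun e => by simp only [hf, (a σ).1 e, (b σ).1 e, and_self],
    fun e => by simp only [hf, (a σ).2 e, (b σ).2 e, and_self]⟩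

theorem Cj.add (a : Cj ε u v) (b : Cj ε z y) : Cj ε (u + z) (v + y) := a.two _ map_add b
theorem Cj.sub (a : Cj ε u v) (b : Cj ε z y) : Cj ε (u - z) (v - y) := a.two _ map_sub b
theorem Cj.mul (a : Cj ε u v) (b : Cj ε z y) : Cj ε (u * z) (v * y) := a.two _ map_mul b
theorem Cj.div (a : Cj ε u v) (b : Cj ε z y) : Cj ε (u / z) (v / y) := a.two _ map_div₀ b
theorem Cj.alg (a : k) : Cj ε (algebraMap k K a) (algebraMap k K a) := .of fun σ => σ.commutes a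
theorem Cj.one : Cj ε (1 : K) 1 := .of map_one

theorem Cj.ne (a : Cj ε u v) (hε : ∃ τ, ε τ = -1) (e : u ≠ 0) : v ≠ 0 :=
  let ⟨τ, t⟩ := hε
  ((a τ).2 t).1 ▸ (map_ne_zero τ).2 e

theorem st_of (s : S2 p m h n) (hε : ∃ τ, ε τ = -1)
    (h1 : ∀ σ u, ε σ = 1 → A σ (p u) = p (σ u) ∧ A σ (m u) = m (σ u))
    (h2 : ∀ σ, ε σ = -1 → ∃ c, c ≠ 0 ∧ ∀ u, A σ (p u) = m (c * σ u) ∧ A σ (m u) = p (c⁻¹ * σ u)) :
    ∃ c, St A ε p m c := by
  obtain ⟨τ, t⟩ := hε
  obtain ⟨c, c0, hc⟩ := h2 τ t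
  have h3 : ∀ σ u, ε σ = -1 → A σ (p u) = m (c * σ u) ∧ A σ (m u) = p (c⁻¹ * σ u) :=
    fun σ u e => by
      obtain ⟨ρ, rfl⟩ : ∃ ρ, σ = τ * ρ := ⟨τ⁻¹ * σ, by group⟩
      have r : ε ρ = 1 := by simpa [t] using e
      simp only [map_mul, MulAut.mul_apply, h1 ρ u r, hc, AlgEquiv.mul_apply, and_self]
  refine ⟨c, ⟨c0, .of fun σ => ?_⟩, fun σ u => ⟨h1 σ u, h3 σ u⟩⟩
  rcases Int.units_eq_one_or (ε σ) with e | e
  · have a := (h3 (σ * τ) 1 (by simp [e, t])).1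
    rw [map_mul, MulAut.mul_apply, (hc 1).1, (h1 σ _ e).2] at a
    simpa using s.inj a
  · have a := (h1 (σ * τ) 1 (by simp [e, t])).2
    rw [map_mul, MulAut.mul_apply, (hc 1).2, (h3 σ _ e).1] at a
    have b := s.inj a
    simp only [map_one, mul_one, map_inv₀] at b
    exact ((mul_inv_eq_one₀ ((map_ne_zero σ).2 c0)).1 b).symm

theorem St.hh (a : St A ε p m c) (s : S2 p m h n) (σ : K ≃ₐ[k] K) (t : Kˣ) :
    (ε σ = 1 → A σ (h t) = h (Units.map (σ : K →* K) t)) ∧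
      (ε σ = -1 → A σ (h t) = h (Units.map (σ : K →* K) t)⁻¹) := by
  refine ⟨fun e => ?_, fun e => ?_⟩
  · rw [s.h_eq, s.h_eq]
    simp [fun u => (a.2 σ u).1 e]
  · rw [s.h_eq, s.h_inv (Units.mk0 c a.1.1)]
    simp [fun u => (a.2 σ u).2 e]

/-- The cocharacter `h` is conjugate to an equivariant one. -/
def Sp (A : (K ≃ₐ[k] K) →* MulAut G) (h : Kˣ →* G) : Prop :=
  ∃ w : G, ∀ σ t, A σ (w * h t * w⁻¹) = w * h (Units.map (σ : K →* K) t) * w⁻¹

theorem St.iso (a : St A ε p m c) (s : S2 p m h n) {z' y' : K} (b : Cj ε z y) (b' : Cj ε z' y')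
    (e : c * y * z = 1) (e' : c * y' * z' = 1) (ne : z ≠ z') : Sp A h := by
  refine ⟨p z * m (1 / (z' - z)), fun σ t => ?_⟩
  have q := Cj.one.div (b'.sub b)
  rcases Int.units_eq_one_or (ε σ) with r | r
  · simp only [map_mul, map_inv, (a.hh s σ t).1 r, fun u => (a.2 σ u).1 r, (b σ).1 r, (q σ).1 r]
  lift z to Kˣ using Ne.isUnit (right_ne_zero_of_mul_eq_one e)
  have z0 := right_ne_zero_of_mul_eq_one e'
  have d0 := sub_ne_zero.2 ne.symm
  have e1 : c * y = -((-z)⁻¹ : Kˣ) := by simpa using eq_inv_of_mul_eq_one_left e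
  have e2 : c⁻¹ * (1 / (y' - y)) = ((-z : Kˣ) : K) + -((((-z)⁻¹ : Kˣ) : K) ^ 2)⁻¹ * (1 / (z' - z)) := by
    rw [one_div, ← mul_inv, mul_sub, eq_inv_of_mul_eq_one_left e, eq_inv_of_mul_eq_one_left e',
      inv_sub_inv z0 z.ne_zero, ← neg_sub (z' : K)]
    simp only [Units.val_neg, Units.val_inv_eq_inv_val]
    field_simp
    ring
  have e3 : ∀ x, h (-z) * n * p (-((((-z)⁻¹ : Kˣ) : K) ^ 2)⁻¹ * x) = m x * (h (-z) * n) := fun x => by
    have f := s.np (((-z)⁻¹ : Kˣ) ^ 2 * (-((((-z)⁻¹ : Kˣ) : K) ^ 2)⁻¹ * x))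
    rw [← s.hp, ← mul_assoc (_ : K), mul_neg, mul_inv_cancel₀ (by simp), neg_one_mul, neg_neg] at f
    have g := s.nh' (-z)⁻¹
    rw [inv_inv] at g
    rw [← f, ← g]
    group
  have w : A σ (p z * m (1 / (z' - z))) = p z * m (1 / (z' - z)) * (h (-z) * n) := by
    rw [map_mul, ((a.2 σ _).2 r).1, ((a.2 σ _).2 r).2, ((b σ).2 r).1, ((q σ).2 r).1, e1, e2, s.pa,
      mul_assoc (p _), ← e3, ← s.sl, Units.val_neg, s.pn]
    group
  rw [map_mul, map_mul, map_inv, w, (a.hh s σ t).2 r]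
  have f := s.nh (Units.map (σ : K →* K) t)⁻¹
  have g : h (-z) * h (Units.map (σ : K →* K) t) * (h (-z))⁻¹ = h (Units.map (σ : K →* K) t) := by
    rw [← map_inv, ← map_mul, ← map_mul, mul_inv_cancel_comm]
  rw [inv_inv] at f
  rw [← g, ← f]
  group

theorem St.step (a : St A ε p m c) (s : S2 p m h n) (a' : St A ε p' m' c') (b : Cj ε u v)
    (d : Kˣ) (e : (d : K) = 1 - c * u * v) (hp : ∀ z, h d * p' z * (h d)⁻¹ = p' ((d⁻¹ : Kˣ) * z))
    (hm : ∀ z, h d * m' z * (h d)⁻¹ = m' (d * z)) : ∃ w : G,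
      St A ε (fun z => w * p' z * w⁻¹) (fun z => w * m' z * w⁻¹) (d * c') := by
  have cd : Cj ε (d : K) d := by
    have := Cj.one.sub ((a.1.2.mul b).mul b.symm)
    rwa [mul_right_comm c v, ← e] at this
  have q := (a.1.2.mul b.symm).div cd
  refine ⟨p u * m (c * v / d), ⟨mul_ne_zero d.ne_zero a'.1.1, cd.mul a'.1.2⟩, fun σ z =>
    ⟨fun r => ?_, fun r => ?_⟩⟩
  · simp only [map_mul, map_inv, fun u => (a.2 σ u).1 r, fun u => (a'.2 σ u).1 r, (b σ).1 r,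
      (q σ).1 r, and_self]
  have w : A σ (p u * m (c * v / d)) = p u * m (c * v / d) * h d := by
    have g := s.ga (-u) (c * v) d (by rw [e]; ring)
    rw [neg_div, s.pn, s.pn] at g
    rw [map_mul, ((a.2 σ _).2 r).1, ((a.2 σ _).2 r).2, ((b σ).2 r).1, ((q σ).2 r).1,
      mul_div_assoc, inv_mul_cancel_left₀ a.1.1, mul_assoc, ← eq_mul_inv_iff_mul_eq.1 g]
    group
  beta_reduce
  constructor
  · rw [map_mul, map_mul, map_inv, w, ((a'.2 σ _).2 r).1, mul_assoc (d : K), ← hm]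
    group
  · rw [map_mul, map_mul, map_inv, w, ((a'.2 σ _).2 r).2, mul_inv, mul_assoc (d : K)⁻¹,
      ← Units.val_inv_eq_inv_val, ← hp]
    group

/-- An element which generates the quadratic extension. -/
theorem ex_gen [IsGalois k K] (hε : ∃ τ, ε τ = -1) (F : IntermediateField k K)
    [FiniteDimensional k F] (hF : F.fixingSubgroup ≤ ε.ker) : ∃ u v : K, Cj ε u v ∧ u ≠ v := by
  obtain ⟨τ, t⟩ := hε
  have c := InfiniteGalois.fixingSubgroup_fixedField ⟨ε.ker, Subgroup.isClosed_of_isOpen _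
    (Subgroup.isOpen_mono hF F.fixingSubgroup_isOpen)⟩
  have : τ ∉ (IntermediateField.fixedField ε.ker).fixingSubgroup := fun e => by
    rw [c] at e
    exact absurd (t.symm.trans e) (by decide)
  rw [IntermediateField.mem_fixingSubgroup_iff] at this
  push Not at this
  obtain ⟨u, hu, e⟩ := this
  have f : ∀ σ, ε σ = 1 → σ u = u := fun σ r => (IntermediateField.mem_fixedField_iff _ _).1 hu σ r
  have g : ∀ σ, ε σ = -1 → σ u = τ u := fun σ r => by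
    simpa using congrArg τ (f (τ⁻¹ * σ) (by simp [r, t]))
  exact ⟨u, τ u, fun σ => ⟨fun r => ⟨f σ r, g (σ * τ) (by simp [r, t])⟩,
    fun r => ⟨g σ r, f (σ * τ) (by simp [r, t])⟩⟩, Ne.symm e⟩

/-- Hermitian forms in three variables are isotropic. -/
def H3 (ε : (K ≃ₐ[k] K) →* ℤˣ) : Prop :=
  ∀ c c' : K, Cj ε c c → Cj ε c' c' → ∃ x x' y y' z z', Cj ε x x' ∧ Cj ε y y' ∧ Cj ε z z' ∧
    (x ≠ 0 ∨ y ≠ 0 ∨ z ≠ 0) ∧ c' * (z * z') - c * (y * y') - x * x' = 0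

theorem H3.one (H : H3 ε) (hε : ∃ τ, ε τ = -1) (g : Cj ε u v) (ne : u ≠ v) (a : Cj ε c c)
    (a' : Cj ε c' c') (c0 : c ≠ 0) : ∃ x x' y y', Cj ε x x' ∧ Cj ε y y' ∧
      c' - c * (y * y') - x * x' = 0 := by
  obtain ⟨x, x', y, y', z, z', hx, hy, hz, n0, e⟩ := H c c' a a'
  by_cases z0 : z = 0
  · have y0 : y ≠ 0 := fun y0 => by
      have x0 : x ≠ 0 := by simpa [y0, z0] using n0
      exact hx.ne hε x0 (by simpa [y0, z0, x0] using e)
    have y1 := hy.ne hε y0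
    have x0 : x ≠ 0 := fun x0 => by simp [x0, z0, c0, y0, y1] at e
    have x1 := hx.ne hε x0
    obtain ⟨r, r', hr, r0⟩ : ∃ r r' : K, Cj ε r r' ∧ r + r' ≠ 0 := by
      by_contra! f
      exact ne (by linear_combination f u v g - v * f 1 1 .one)
    have q := ((a'.sub .one).mul hr).div (hr.add hr.symm)
    rw [add_comm r'] at q
    refine ⟨_, _, _, _, q.add .one, (q.mul hy).div hx, ?_⟩
    obtain rfl : c = -(x * x') / (y * y') := by
      rw [z0] at e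
      field_simp
      linear_combination -e
    field_simp
    ring
  · have z1 := hz.ne hε z0
    refine ⟨_, _, _, _, hx.div hz, hy.div hz, ?_⟩
    field_simp
    linear_combination e

theorem core (H : H3 ε) (hε : ∃ τ, ε τ = -1) (g : Cj ε u v) (ne : u ≠ v) (a : St A ε p m c)
    (s : S2 p m h n) (a' : St A ε p' m' c') (s' : S2 p' m' h' n')
    (hp : ∀ (d : Kˣ) z, h d * p' z * (h d)⁻¹ = p' ((d⁻¹ : Kˣ) * z))
    (hm : ∀ (d : Kˣ) z, h d * m' z * (h d)⁻¹ = m' (d * z)) : Sp A h ∨ Sp A h' := by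
  have u0 : u ≠ 0 := fun e => g.symm.ne hε (fun e' => ne (e.trans e'.symm)) e
  have v0 := g.ne hε u0
  have I : ∀ {p m : K → G} {h n c z y}, St A ε p m c → S2 p m h n → Cj ε z y → c * y * z = 1 →
      Sp A h := fun {_ _ _ _ c z y} a s b e => a.iso s b (b.mul (g.div g.symm)) e
    (by rw [← e]; field_simp) fun f => ne (by
      have := right_ne_zero_of_mul_eq_one e
      field_simp at f
      exact f.symm)
  obtain ⟨x, x', y, y', hx, hy, e⟩ := H.one hε g ne (a.1.2.mul a'.1.2) a'.1.2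
    (mul_ne_zero a.1.1 a'.1.1)
  by_cases x0 : x = 0
  · refine .inl (I a s hy (mul_left_cancel₀ a'.1.1 ?_))
    rw [x0] at e
    linear_combination -e
  have x1 := hx.ne hε x0
  have e1 : (1 - c * y * y') * c' * (1 / x') * (1 / x) = 1 := by
    field_simp
    linear_combination e
  have d0 : 1 - c * y * y' ≠ 0 := fun f => by simp [f] at e1
  obtain ⟨w, b⟩ := a.step s a' hy (Units.mk0 _ d0) rfl (hp _) (hm _)
  obtain ⟨w', b'⟩ := I b (s'.map (MulAut.conj w)) (Cj.one.div hx) e1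
  exact .inr ⟨w' * w, fun σ t => by simpa [mul_assoc] using b' σ t⟩

end Vale.Agent.P011UK
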